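import Vale.Agent.P235.K5.H355.Rooted

/-!
# P235, K5 / SX, [IRR] (helper355): if all irreducible minors of `G` are of class `P`, then `G` is a
spanning subgraph of a clique sum of pieces of class `P` (cliques with at most three vertices).

Irreducible = 3-connected and no three vertices split it into two parts with at least two vertices
each.
-/

set_option autoImplicit false
set_option linter.all false

namespace Vale.Agent.P235.K5.H355

open SimpleGraph Vale.Agent.P235.H134 Vale.Agent.P235.H56 Vale.Agent.P235.K5.H437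

/-- no three vertices split `G` into two parts with at least two vertices each -/
def Tight3 {V : Type} (G : SimpleGraph V) : Prop :=
  ∀ S C D : Set V, S.ncard = 3 → (∀ v, v ∈ S ∨ v ∈ C ∨ v ∈ D) → (∀ v ∈ C, v ∉ S ∧ v ∉ D) →
    (∀ v ∈ D, v ∉ S) → (∀ u ∈ C, ∀ v ∈ D, ¬ G.Adj u v) → C.Subsingleton ∨ D.Subsingleton

/-- every 3-connected minor of `G` with `Tight3` is of class `P` -/
def IrrIn (P : ∀ W : Type, SimpleGraph W → Prop) {V : Type} (G : SimpleGraph V) : Prop :=
  ∀ (U : Type) [Finite U] (A : SimpleGraph U), IsMinor A G → Conn3 A → Tight3 A → P U A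

/-- the pieces: class `P`, no clique with at most three vertices separates -/
def AtomP (P : ∀ W : Type, SimpleGraph W → Prop) (W : Type) (G : SimpleGraph W) : Prop :=
  Nonempty W ∧ (∀ K : Set W, K.ncard ≤ 3 → Clq G K → (G.induce Kᶜ).Preconnected) ∧ P W G

variable {P : ∀ W : Type, SimpleGraph W → Prop} {V : Type}

theorem minor_refl {W : Type} (G : SimpleGraph W) : IsMinor G G := by
  refine ⟨fun v => {v}, fun v => conn_single G v, fun a b hab => ?_,
    fun a b hab => ⟨a, rfl, b, rfl, hab⟩⟩
  rw [Set.disjoint_left]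
  rintro x rfl hx
  exact hab hx

theorem IrrIn.sub {G : SimpleGraph V} {Z X : Set V} (hZ : Z ⊆ X) (h : IrrIn P (G.induce X)) :
    IrrIn P (G.induce Z) :=
  fun U _ A hA h3 ht => h U A (minor_sub hZ hA) h3 ht

theorem IrrIn.of {G : SimpleGraph V} {W : Type} {H : SimpleGraph W}
    (hm : ∀ (U : Type) (A : SimpleGraph U), IsMinor A H → IsMinor A G) (h : IrrIn P G) :
    IrrIn P H :=
  fun U _ A hA h3 ht => h U A (hm U A hA) h3 ht

/-- the recursion -/
theorem goodP [Finite V] : ∀ (n : ℕ) (X : Set V), X.ncard ≤ n → X.Nonempty →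
    ∀ G : SimpleGraph V, IrrIn P (G.induce X) → ∀ R ⊆ X, Clq G R → H437.Good (AtomP P) G X R := by
  intro n
  induction n with
  | zero =>
    intro X hX hne
    have : X = ∅ := (Set.ncard_eq_zero (Set.toFinite X)).1 (Nat.le_zero.1 hX)
    rw [this] at hne
    exact absurd hne Set.not_nonempty_empty
  | succ n ih =>
    intro X hX hXne G hG R hRX hR
    have small : ∀ Y : Set V, Y ⊆ X → (∃ y ∈ X, y ∉ Y) → Y.ncard ≤ n := by
      intro Y hY ⟨y, hy, hyY⟩
      have h1 : Y.ncard < X.ncard :=
        Set.ncard_lt_ncard ⟨hY, fun h => hyY (h hy)⟩ (Set.toFinite X)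
      omega
    by_cases hsep : ∃ K C : Set V, K ⊆ X ∧ C ⊆ X ∧ C.Nonempty ∧ (∀ v ∈ C, v ∉ K) ∧
        K.ncard ≤ 3 ∧ Clq G K ∧ (∀ u ∈ C, ∀ v ∈ X, G.Adj u v → v ∈ C ∨ v ∈ K) ∧
        ∃ y ∈ X, y ∉ C ∧ y ∉ K
    · obtain ⟨K, C, hKX, hCX, hCne, hCK, hK3, hKc, hcl, y, hy, hyC, hyK⟩ := hsep
      refine H437.Good.split hCX hKX hCK hK3 hcl hRX hR ?_ ?_
      · rw [sup_cl hKc]
        intro R' hR' hRc'
        have hsub : C ∪ K ⊆ X := Set.union_subset hCX hKX
        exact ih _ (small _ hsub ⟨y, hy, fun h => h.elim hyC hyK⟩)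
          (hCne.mono Set.subset_union_left) G (hG.sub hsub) R' hR' hRc'
      · rw [sup_cl hKc]
        intro R' hR' hRc'
        have hsub : X \ C ⊆ X := Set.diff_subset
        obtain ⟨c, hc⟩ := hCne
        exact ih _ (small _ hsub ⟨c, hCX hc, fun h => h.2 hc⟩)
          ⟨y, hy, hyC⟩ G (hG.sub hsub) R' hR' hRc'
    have nosep : ∀ K C : Set V, K ⊆ X → C ⊆ X → C.Nonempty → (∀ v ∈ C, v ∉ K) →
        K.ncard ≤ 3 → Clq G K → (∀ u ∈ C, ∀ v ∈ X, G.Adj u v → v ∈ C ∨ v ∈ K) →
        ∀ y ∈ X, y ∉ C → y ∉ K → False := by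
      intro K C h1 h2 h3 h4 h5 h6 h7 y hy hyC hyK
      exact hsep ⟨K, C, h1, h2, h3, h4, h5, h6, h7, y, hy, hyC, hyK⟩
    by_cases h2 : ∃ s ∈ X, ∃ t ∈ X, ∃ C ⊆ X, C.Nonempty ∧ s ∉ C ∧ t ∉ C ∧
        (∀ u ∈ C, ∀ v ∈ X, G.Adj u v → v ∈ C ∨ v = s ∨ v = t) ∧ ∃ y ∈ X, y ∉ C ∧ y ≠ s ∧ y ≠ t
    · obtain ⟨s, hs, t, ht, C, hCX, ⟨c, hc⟩, hsC, htC, hcl, y, hy, hyC, hys, hyt⟩ := h2
      -- `s ≠ t`, not adjacent
      have hK2 : ({s, t} : Set V).ncard ≤ 3 := by
        have := Set.ncard_insert_le s {t}
        rw [Set.ncard_singleton] at this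
        omega
      have hKX : ({s, t} : Set V) ⊆ X := by
        rintro x (rfl | rfl)
        · exact hs
        · exact ht
      have hnst : ¬ (s = t ∨ G.Adj s t) := by
        intro hst
        refine nosep {s, t} C hKX hCX ⟨c, hc⟩ ?_ hK2 ?_ ?_ y hy hyC ?_
        · rintro v hv (rfl | rfl)
          · exact hsC hv
          · exact htC hv
        · rintro u (rfl | rfl) v (rfl | rfl) huv
          · exact absurd rfl huv
          · exact hst.resolve_left huv
          · exact (hst.resolve_left (Ne.symm huv)).symm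
          · exact absurd rfl huv
        · intro u hu v hv huv
          rcases hcl u hu v hv huv with h | h | h
          · exact Or.inl h
          · exact Or.inr (Or.inl h)
          · exact Or.inr (Or.inr h)
        · rintro (h | h)
          · exact hys h
          · exact hyt h
      have hst : s ≠ t := fun h => hnst (Or.inl h)
      set Y : Set V := X \ {s, t} with hY
      have memY : ∀ v, v ∈ X → v ≠ s → v ≠ t → v ∈ Y := by
        intro v hv h1 h2
        exact ⟨hv, fun h => h.elim h1 h2⟩
      have hcs : c ≠ s := fun h => hsC (h ▸ hc)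
      have hct : c ≠ t := fun h => htC (h ▸ hc)
      have hcY : c ∈ Y := memY c (hCX hc) hcs hct
      have hyY : y ∈ Y := memY y hy hys hyt
      have adjE : ∀ e ∈ Y, ∀ s' t' : V, s' ≠ t' → s' ∈ X → t' ∈ X →
          (∀ v ∈ X, v ≠ s' → v ≠ t' → v ∈ Y) → (∀ v ∈ Y, v ≠ s' ∧ v ≠ t') →
          ∃ a ∈ H437.comp G Y e, G.Adj a s' := by
        intro e he s' t' hst' hs' ht' hmem hmem'
        by_contra hno
        push Not at hno
        have hEY : H437.comp G Y e ⊆ Y := comp_sub he
        refine nosep {t'} (H437.comp G Y e) (by rintro x rfl; exact ht')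
          (fun v hv => (hEY hv).1) ⟨e, comp_self⟩ ?_ (by rw [Set.ncard_singleton]; omega) ?_ ?_
          s' hs' ?_ ?_
        · rintro v hv rfl
          exact (hmem' v (hEY hv)).2 rfl
        · rintro u rfl v rfl huv
          exact absurd rfl huv
        · intro u hu v hv huv
          by_cases h1 : v = t'
          · exact Or.inr h1
          · have h2 : v ≠ s' := by
              rintro rfl
              exact hno u hu huv
            exact Or.inl (comp_step hu huv (hmem v hv h2 h1))
        · intro h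
          exact (hmem' s' (hEY h)).1 rfl
        · exact hst'
      have adjs : ∀ e ∈ Y, ∃ a ∈ H437.comp G Y e, G.Adj a s := fun e he =>
        adjE e he s t hst hs ht memY (fun v hv => ⟨fun h => hv.2 (Or.inl h),
          fun h => hv.2 (Or.inr h)⟩)
      have adjt : ∀ e ∈ Y, ∃ a ∈ H437.comp G Y e, G.Adj a t := fun e he =>
        adjE e he t s hst.symm ht hs (fun v hv h1 h2 => memY v hv h2 h1)
          (fun v hv => ⟨fun h => hv.2 (Or.inr h), fun h => hv.2 (Or.inl h)⟩)
      set C' := H437.comp G Y c with hC'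
      set D' := H437.comp G Y y with hD'
      have hC'Y : C' ⊆ Y := comp_sub hcY
      have hD'Y : D' ⊆ Y := comp_sub hyY
      have hC'C : C' ⊆ C := by
        refine comp_le hc ?_
        intro u hu v hv huv
        rcases hcl u hu v hv.1 huv with h | h | h
        · exact h
        · exact absurd (Or.inl h) hv.2
        · exact absurd (Or.inr h) hv.2
      have hD'C : D' ⊆ Y \ C := by
        refine comp_le ⟨hyY, hyC⟩ ?_
        intro u hu v hv huv
        refine ⟨hv, fun hvC => ?_⟩
        rcases hcl v hvC u hu.1.1 huv.symm with h | h | h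
        · exact hu.2 h
        · exact hu.1.2 (Or.inl h)
        · exact hu.1.2 (Or.inr h)
      refine H437.Good.split (C := C') (K := {s, t}) (fun v hv => (hC'Y hv).1) hKX
        (fun v hv => (hC'Y hv).2) hK2 ?_ hRX hR ?_ ?_
      · intro u hu v hv huv
        by_cases h : v ∈ ({s, t} : Set V)
        · exact Or.inr h
        · exact Or.inl (comp_step hu huv ⟨hv, h⟩)
      · intro R' hR' hRc'
        have hsub : C' ∪ {s, t} ⊆ X := Set.union_subset (fun v hv => (hC'Y hv).1) hKX
        refine ih _ (small _ hsub ⟨y, hy, ?_⟩) ⟨c, Or.inl comp_self⟩ _ ?_ R' hR' hRc'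
        · rintro (h | h)
          · exact hyC (hC'C h)
          · exact hyY.2 h
        · refine hG.of fun U A => not_imp_not.1 fun hG' => ?_
          refine k_gen (N1 := insert s D') (N2 := {t}) hsub hst ?_ ?_ (Or.inl rfl) rfl ?_ ?_ ?_
            (con_insert comp_conn (adjs y hyY)) (conn_single G t) ?_ ?_ ?_ ?_ hG'
          · rintro x (rfl | hx)
            · exact hs
            · exact (hD'Y hx).1
          · rintro x rfl
            exact ht
          · rintro v (rfl | hv) hvZ
            · rfl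
            · exfalso
              rcases hvZ with h | h
              · exact (hD'C hv).2 (hC'C h)
              · exact (hD'Y hv).2 h
          · intro v hv _
            exact hv
          · rw [Set.disjoint_left]
            rintro x (rfl | hx) hx'
            · exact hst hx'
            · exact (hD'Y hx).2 (Or.inr hx')
          · rintro v (rfl | rfl) h1 h2
            · exact absurd rfl h1
            · exact absurd rfl h2
          · rintro v (rfl | rfl) h1 h2
            · exact absurd rfl h1
            · exact absurd rfl h2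
          · obtain ⟨a, ha, hat⟩ := adjt y hyY
            exact ⟨a, Or.inr ha, t, rfl, hat⟩
          · rintro u (rfl | rfl) v _ _
            · exact Or.inl rfl
            · exact Or.inr (Or.inl rfl)
      · intro R' hR' hRc'
        have hsub : X \ C' ⊆ X := Set.diff_subset
        refine ih _ (small _ hsub ⟨c, hcY.1, fun h => h.2 comp_self⟩)
          ⟨y, hy, fun h => hyC (hC'C h)⟩ _ ?_ R' hR' hRc'
        refine hG.of fun U A => not_imp_not.1 fun hG' => ?_
        refine k_gen (N1 := insert s C') (N2 := {t}) hsub hst ?_ ?_ (Or.inl rfl) rfl ?_ ?_ ?_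
          (con_insert comp_conn (adjs c hcY)) (conn_single G t) ?_ ?_ ?_ ?_ hG'
        · rintro x (rfl | hx)
          · exact hs
          · exact (hC'Y hx).1
        · rintro x rfl
          exact ht
        · rintro v (rfl | hv) hvZ
          · rfl
          · exact absurd hv hvZ.2
        · intro v hv _
          exact hv
        · rw [Set.disjoint_left]
          rintro x (rfl | hx) hx'
          · exact hst hx'
          · exact (hC'Y hx).2 (Or.inr hx')
        · rintro v (rfl | rfl) h1 h2
          · exact absurd rfl h1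
          · exact absurd rfl h2
        · rintro v (rfl | rfl) h1 h2
          · exact absurd rfl h1
          · exact absurd rfl h2
        · obtain ⟨a, ha, hat⟩ := adjt c hcY
          exact ⟨a, Or.inr ha, t, rfl, hat⟩
        · rintro u (rfl | rfl) v _ _
          · exact Or.inl rfl
          · exact Or.inr (Or.inl rfl)
    -- now `G[X]` is 3-connected
    have hc3 : ∀ s ∈ X, ∀ t ∈ X, ∀ C ⊆ X, C.Nonempty → s ∉ C → t ∉ C →
        (∀ u ∈ C, ∀ v ∈ X, G.Adj u v → v ∈ C ∨ v = s ∨ v = t) →
        ∀ y ∈ X, y ∉ C → y ≠ s → y ≠ t → False := by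
      intro s hs t ht C hC h3 h4 h5 h6 y hy h7 h8 h9
      exact h2 ⟨s, hs, t, ht, C, hC, h3, h4, h5, h6, y, hy, h7, h8, h9⟩
    have hconn3 : Conn3 (G.induce X) := by
      intro s t C hne hsC htC hcl y
      by_contra hy
      push Not at hy
      refine hc3 s.1 s.2 t.1 t.2 (Subtype.val '' C) ?_ (hne.image _) ?_ ?_ ?_ y.1 y.2 ?_
        (fun h => hy.2.1 (Subtype.ext h)) (fun h => hy.2.2 (Subtype.ext h))
      · rintro _ ⟨x, _, rfl⟩
        exact x.2
      · rintro ⟨x, hx, hxs⟩
        exact hsC (Subtype.ext hxs ▸ hx)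
      · rintro ⟨x, hx, hxs⟩
        exact htC (Subtype.ext hxs ▸ hx)
      · rintro _ ⟨x, hx, rfl⟩ v hv hxv
        rcases hcl x hx ⟨v, hv⟩ hxv with h | h | h
        · exact Or.inl ⟨_, h, rfl⟩
        · exact Or.inr (Or.inl (congrArg Subtype.val h))
        · exact Or.inr (Or.inr (congrArg Subtype.val h))
      · rintro ⟨x, hx, hxs⟩
        exact hy.1 (Subtype.ext hxs ▸ hx)
    have hpre : ∀ K : Set X, K.ncard ≤ 3 → Clq (G.induce X) K →
        ((G.induce X).induce Kᶜ).Preconnected := by
      intro K hK hKc a b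
      have haY : a.1.1 ∈ X \ (Subtype.val '' K) := ⟨a.1.2, by
        rintro ⟨x, hx, hxa⟩
        exact a.2 (Subtype.ext hxa ▸ hx)⟩
      have hbK : b.1.1 ∉ (Subtype.val '' K : Set V) := by
        rintro ⟨x, hx, hxa⟩
        exact b.2 (Subtype.ext hxa ▸ hx)
      have hsub := comp_sub (G := G) haY
      have hb : b.1.1 ∈ H437.comp G (X \ (Subtype.val '' K)) a.1.1 := by
        by_contra hb
        refine nosep (Subtype.val '' K) (H437.comp G (X \ (Subtype.val '' K)) a.1.1) ?_
          (fun v hv => (hsub hv).1) ⟨_, comp_self⟩ (fun v hv => (hsub hv).2) ?_ ?_ ?_ b.1.1 b.1.2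
          hb hbK
        · rintro _ ⟨x, _, rfl⟩
          exact x.2
        · exact (Set.ncard_image_le (Set.toFinite K)).trans hK
        · rintro _ ⟨x, hx, rfl⟩ _ ⟨z, hz, rfl⟩ hxz
          exact hKc x hx z hz (fun h => hxz (congrArg Subtype.val h))
        · intro u hu v hv huv
          by_cases h : v ∈ (Subtype.val '' K : Set V)
          · exact Or.inr h
          · exact Or.inl (comp_step hu huv ⟨hv, h⟩)
      let f : G.induce (H437.comp G (X \ (Subtype.val '' K)) a.1.1) →g (G.induce X).induce Kᶜ :=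
        ⟨fun z => ⟨⟨z.1, (hsub z.2).1⟩, fun hz => (hsub z.2).2 ⟨_, hz, rfl⟩⟩, fun h => h⟩
      exact (comp_reach b.1.1 hb).map f
    by_cases htight : Tight3 (G.induce X)
    · exact H437.Good.one hRX ⟨hXne.to_subtype, hpre, hG X (G.induce X) (minor_refl _) hconn3 htight⟩
    -- a non-trivial separation
    unfold Tight3 at htight
    push Not at htight
    obtain ⟨S, C, D, hS3, hall, hCn, hDn, hCD, hC2, hD2⟩ := htight
    obtain ⟨s1, s2, s3, h12, h13, h23, hSe⟩ := Set.ncard_eq_three.1 hS3
    let s : Fin 3 → V := ![s1.1, s2.1, s3.1]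
    have n12 : s1.1 ≠ s2.1 := fun h => h12 (Subtype.ext h)
    have n13 : s1.1 ≠ s3.1 := fun h => h13 (Subtype.ext h)
    have n23 : s2.1 ≠ s3.1 := fun h => h23 (Subtype.ext h)
    have hsinj : Function.Injective s := by
      intro i j hij
      fin_cases i <;> fin_cases j <;> simp [s] at hij ⊢
      · exact absurd hij n12
      · exact absurd hij n13
      · exact absurd hij.symm n12
      · exact absurd hij n23
      · exact absurd hij.symm n13
      · exact absurd hij.symm n23
    have hsX : ∀ i, s i ∈ X := by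
      intro i
      fin_cases i
      · exact s1.2
      · exact s2.2
      · exact s3.2
    have memS : ∀ x : X, x ∈ S → ∃ i, x.1 = s i := by
      intro x hx
      rw [hSe] at hx
      rcases hx with rfl | rfl | rfl
      · exact ⟨0, rfl⟩
      · exact ⟨1, rfl⟩
      · exact ⟨2, rfl⟩
    have memS' : ∀ (x : X) (i : Fin 3), x.1 = s i → x ∈ S := by
      intro x i hx
      rw [hSe]
      fin_cases i
      · exact Or.inl (Subtype.ext hx)
      · exact Or.inr (Or.inl (Subtype.ext hx))
      · exact Or.inr (Or.inr (Subtype.ext hx))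
    -- closedness of the two sides
    have side : ∀ (E F : Set X), (∀ v, v ∈ S ∨ v ∈ E ∨ v ∈ F) →
        (∀ u ∈ E, ∀ v ∈ F, ¬ (G.induce X).Adj u v) →
        ∀ u ∈ (Subtype.val '' E : Set V), ∀ v ∈ X, G.Adj u v →
          v ∈ (Subtype.val '' E : Set V) ∨ ∃ i, v = s i := by
      rintro E F h1 h2 _ ⟨x, hx, rfl⟩ v hv hxv
      rcases h1 ⟨v, hv⟩ with h | h | h
      · obtain ⟨i, hi⟩ := memS _ h
        exact Or.inr ⟨i, hi⟩
      · exact Or.inl ⟨_, h, rfl⟩
      · exact absurd hxv (h2 x hx ⟨v, hv⟩ h)
    have offS : ∀ (E : Set X), (∀ v ∈ E, v ∉ S) → ∀ i, s i ∉ (Subtype.val '' E : Set V) := by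
      rintro E h i ⟨x, hx, hxi⟩
      exact h x hx (memS' x i hxi)
    have inX : ∀ E : Set X, (Subtype.val '' E : Set V) ⊆ X := by
      rintro E _ ⟨x, _, rfl⟩
      exact x.2
    have ns : ∀ E : Set X, ¬ E.Subsingleton → ¬ (Subtype.val '' E : Set V).Subsingleton := by
      intro E h h'
      exact h (fun a ha b hb => Subtype.ext (h' ⟨a, ha, rfl⟩ ⟨b, hb, rfl⟩))
    have hC2' : ¬ C.Subsingleton := by
      rw [Set.not_subsingleton_iff]; exact hC2
    have hD2' : ¬ D.Subsingleton := by
      rw [Set.not_subsingleton_iff]; exact hD2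
    have clC := side C D hall hCD
    have clD := side D C (fun v => by
      rcases hall v with h | h | h
      · exact Or.inl h
      · exact Or.inr (Or.inr h)
      · exact Or.inr (Or.inl h)) (fun u hu v hv huv => hCD v hv u hu huv.symm)
    have offC := offS C (fun v hv => (hCn v hv).1)
    have offD := offS D hDn
    have dCD : ∀ v ∈ (Subtype.val '' C : Set V), v ∉ (Subtype.val '' D : Set V) := by
      rintro _ ⟨x, hx, rfl⟩ ⟨z, hz, hzx⟩
      have : z = x := Subtype.ext hzx
      rw [this] at hz
      exact (hCn x hx).2 hz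
    obtain ⟨N, hN⟩ := rooted hsinj hsX (inX D) offD clD hc3 (ns D hD2')
    obtain ⟨M, hM⟩ := rooted hsinj hsX (inX C) offC clC hc3 (ns C hC2')
    set C' : Set V := Subtype.val '' C with hC'
    set D' : Set V := Subtype.val '' D with hD'
    set T : Set V := Set.range s with hT
    have hTX : T ⊆ X := by
      rintro _ ⟨i, rfl⟩
      exact hsX i
    have hT3 : T.ncard ≤ 3 := by
      have h1 : T = s '' Set.univ := by rw [hT, Set.image_univ]
      rw [h1]
      refine (Set.ncard_image_le (Set.toFinite _)).trans ?_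
      simp [Set.ncard_univ]
    have hDX : X \ C' = D' ∪ T := by
      ext v
      constructor
      · rintro ⟨hv, hvC⟩
        rcases hall ⟨v, hv⟩ with h | h | h
        · obtain ⟨i, hi⟩ := memS _ h
          exact Or.inr ⟨i, hi.symm⟩
        · exact absurd ⟨_, h, rfl⟩ hvC
        · exact Or.inl ⟨_, h, rfl⟩
      · rintro (hv | ⟨i, rfl⟩)
        · exact ⟨inX D hv, fun h => dCD v h hv⟩
        · exact ⟨hsX i, offC i⟩
    have hne : C'.Nonempty := by
      obtain ⟨x, hx, _⟩ := hC2
      exact ⟨_, x, hx, rfl⟩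
    have hneD : D'.Nonempty := by
      obtain ⟨x, hx, _⟩ := hD2
      exact ⟨_, x, hx, rfl⟩
    refine H437.Good.split (C := C') (K := T) (inX C) hTX ?_ hT3 ?_ hRX hR ?_ ?_
    · rintro v hv ⟨i, rfl⟩
      exact offC i hv
    · intro u hu v hv huv
      rcases clC u hu v hv huv with h | ⟨i, rfl⟩
      · exact Or.inl h
      · exact Or.inr ⟨i, rfl⟩
    · intro R' hR' hRc'
      have hsub : C' ∪ T ⊆ X := Set.union_subset (inX C) hTX
      obtain ⟨d, hd⟩ := hneD
      refine ih _ (small _ hsub ⟨d, inX D hd, ?_⟩) (hne.mono Set.subset_union_left) _ ?_ R' hR' hRc'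
      · rintro (h | ⟨i, rfl⟩)
        · exact dCD d h hd
        · exact offD i hd
      · exact hG.of fun U A hA => k3_map hsinj hsX (inX C) (inX D) offC dCD hN hA
    · intro R' hR' hRc'
      have hsub : X \ C' ⊆ X := Set.diff_subset
      obtain ⟨c, hc⟩ := hne
      refine ih _ (small _ hsub ⟨c, inX C hc, fun h => h.2 hc⟩) ?_ _ ?_ R' hR' hRc'
      · rw [hDX]
        exact hneD.mono Set.subset_union_left
      · refine hG.of fun U A hA => ?_
        rw [hDX] at hA
        exact k3_map hsinj hsX (inX D) (inX C) offD (fun v hv h => dCD v h hv) hM hA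

/-- **[IRR]** if every 3-connected minor of `G` without non-trivial 3-separation is of class `P`,
then `G` is a spanning subgraph of a graph glued along cliques with at most three vertices from
pieces of class `P` -/
theorem irr_glued [Finite V] [Nonempty V] (G : SimpleGraph V) (hG : IrrIn P G) :
    ∃ H : SimpleGraph V, G ≤ H ∧ ∃ m B, Glued 3 H m B ∧
      ∀ t < m, AtomP P (B t) (H.induce (B t)) := by
  have hG' : IrrIn P (G.induce (Set.univ : Set V)) := by
    refine hG.of fun U A hA => ?_
    refine minor_trans hA ⟨fun z => {z.1}, fun z => conn_single G z.1, fun a b hab => ?_,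
      fun a b hab => ⟨a.1, rfl, b.1, rfl, hab⟩⟩
    rw [Set.disjoint_left]
    rintro x rfl hx
    exact hab (Subtype.ext hx)
  obtain ⟨H, hH, m, B, hB⟩ := goodP (Set.univ : Set V).ncard Set.univ le_rfl Set.univ_nonempty G
    hG' ∅ (Set.empty_subset _) (fun u hu => hu.elim)
  exact ⟨H, fun u v huv => hH u trivial v trivial huv, m, B,
    ⟨fun v => hB.cover v trivial, hB.card, hB.clique, hB.sep⟩, hB.atom⟩

end Vale.Agent.P235.K5.H355
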