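import Vale.Agent.P235.K5.H437.Fin
import Vale.Agent.P235.K5.W.H246.Touch

/-!
# P235, K5 / SX, [IRR] (helper355): the torsos of a non-trivial separation of order three in a
3-connected graph are minors
-/

set_option autoImplicit false
set_option linter.all false

namespace Vale.Agent.P235.K5.H355

open SimpleGraph Vale.Agent.P235.H134 Vale.Agent.P235.H56 Vale.Agent.P235.K5.H437

variable {V : Type}

theorem bool_aux : ∀ p q : Fin 3 → Bool, (∀ i, (p i || q i) = true) →
    (∃ i j, i ≠ j ∧ p i = true ∧ p j = true) → (∃ i j, i ≠ j ∧ q i = true ∧ q j = true) →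
    ∃ a b c : Fin 3, a ≠ b ∧ b ≠ c ∧ a ≠ c ∧ p a = true ∧ p b = true ∧ q b = true ∧
      q c = true := by
  decide

theorem prop_aux (p q : Fin 3 → Prop) (h : ∀ i, p i ∨ q i) (hp : ∃ i j, i ≠ j ∧ p i ∧ p j)
    (hq : ∃ i j, i ≠ j ∧ q i ∧ q j) :
    ∃ a b c : Fin 3, a ≠ b ∧ b ≠ c ∧ a ≠ c ∧ p a ∧ p b ∧ q b ∧ q c := by
  classical
  have := bool_aux (fun i => decide (p i)) (fun i => decide (q i))
    (fun i => by
      rcases h i with h | h
      · simp [h]
      · simp [h])
    (by
      obtain ⟨i, j, h1, h2, h3⟩ := hp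
      exact ⟨i, j, h1, by simpa using h2, by simpa using h3⟩)
    (by
      obtain ⟨i, j, h1, h2, h3⟩ := hq
      exact ⟨i, j, h1, by simpa using h2, by simpa using h3⟩)
  obtain ⟨a, b, c, h1, h2, h3, h4, h5, h6, h7⟩ := this
  exact ⟨a, b, c, h1, h2, h3, by simpa using h4, by simpa using h5, by simpa using h6,
    by simpa using h7⟩

theorem three : ∀ a b c : Fin 3, a ≠ b → b ≠ c → a ≠ c → ∀ i, i = a ∨ i = b ∨ i = c := by
  decide

theorem oth : ∀ i : Fin 3, ∃ j k : Fin 3, i ≠ j ∧ i ≠ k ∧ j ≠ k := by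
  decide

/-- a `K_3` rooted at the three vertices `s i` inside `D ∪ range s` -/
def Root3 (G : SimpleGraph V) (D : Set V) (s : Fin 3 → V) (N : Fin 3 → Set V) : Prop :=
  (∀ i, s i ∈ N i) ∧ (∀ i, ∀ v ∈ N i, v ∈ D ∨ v = s i) ∧
    (∀ i j, i ≠ j → Disjoint (N i) (N j)) ∧ (∀ i, (G.induce (N i)).Connected) ∧
    ∀ i j, i ≠ j → ∃ a ∈ N i, ∃ b ∈ N j, G.Adj a b

theorem mk2 {G : SimpleGraph V} {D : Set V} {s : Fin 3 → V} (hs : Function.Injective s)
    (hDs : ∀ i, s i ∉ D) {a b c : Fin 3} (hab : a ≠ b) (hbc : b ≠ c) (hac : a ≠ c) {P Q : Set V}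
    (hP : P ⊆ D) (hQ : Q ⊆ D) (hPQ : Disjoint P Q) (cP : (G.induce P).Connected)
    (cQ : (G.induce Q).Connected) (h1 : ∃ x ∈ P, G.Adj x (s a)) (h2 : ∃ x ∈ Q, G.Adj x (s c))
    (h3 : ∃ x ∈ P, G.Adj x (s b)) (h4 : ∃ x ∈ Q, G.Adj x (s b))
    (h5 : ∃ x ∈ insert (s a) P, ∃ y ∈ insert (s c) Q, G.Adj x y) : ∃ N, Root3 G D s N := by
  classical
  set N : Fin 3 → Set V := fun i => if i = a then insert (s a) P else if i = c then
    insert (s c) Q else {s i} with hN
  have Na : N a = insert (s a) P := by simp [hN]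
  have Nc : N c = insert (s c) Q := by simp [hN, hac.symm]
  have Nb : N b = {s b} := by simp [hN, hab.symm, hbc]
  have all := three a b c hab hbc hac
  have dab : Disjoint (N a) (N b) := by
    rw [Na, Nb, Set.disjoint_left]
    rintro x (rfl | hx) hx'
    · exact hab (hs hx')
    · exact hDs b (hx' ▸ hP hx)
  have dcb : Disjoint (N c) (N b) := by
    rw [Nc, Nb, Set.disjoint_left]
    rintro x (rfl | hx) hx'
    · exact hbc.symm (hs hx')
    · exact hDs b (hx' ▸ hQ hx)
  have dac : Disjoint (N a) (N c) := by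
    rw [Na, Nc, Set.disjoint_left]
    rintro x (rfl | hx) (hx' | hx')
    · exact hac (hs hx')
    · exact hDs a (hQ hx')
    · exact hDs c (hx' ▸ hP hx)
    · exact Set.disjoint_left.1 hPQ hx hx'
  have eab : ∃ x ∈ N a, ∃ y ∈ N b, G.Adj x y := by
    obtain ⟨x, hx, h⟩ := h3
    exact ⟨x, by rw [Na]; exact Or.inr hx, s b, by rw [Nb]; rfl, h⟩
  have ecb : ∃ x ∈ N c, ∃ y ∈ N b, G.Adj x y := by
    obtain ⟨x, hx, h⟩ := h4
    exact ⟨x, by rw [Nc]; exact Or.inr hx, s b, by rw [Nb]; rfl, h⟩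
  have eac : ∃ x ∈ N a, ∃ y ∈ N c, G.Adj x y := by
    rw [Na, Nc]; exact h5
  have flip : ∀ i j, (∃ x ∈ N i, ∃ y ∈ N j, G.Adj x y) → ∃ x ∈ N j, ∃ y ∈ N i, G.Adj x y := by
    rintro i j ⟨x, hx, y, hy, h⟩
    exact ⟨y, hy, x, hx, h.symm⟩
  refine ⟨N, ?_, ?_, ?_, ?_, ?_⟩
  · intro i
    rcases all i with rfl | rfl | rfl
    · rw [Na]; exact Or.inl rfl
    · rw [Nb]; rfl
    · rw [Nc]; exact Or.inl rfl
  · intro i v hv
    rcases all i with rfl | rfl | rfl
    · rw [Na] at hv
      rcases hv with hv | hv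
      · exact Or.inr hv
      · exact Or.inl (hP hv)
    · rw [Nb] at hv
      exact Or.inr hv
    · rw [Nc] at hv
      rcases hv with hv | hv
      · exact Or.inr hv
      · exact Or.inl (hQ hv)
  · intro i j hij
    rcases all i with rfl | rfl | rfl
    · rcases all j with rfl | rfl | rfl
      · exact absurd rfl hij
      · exact dab
      · exact dac
    · rcases all j with rfl | rfl | rfl
      · exact dab.symm
      · exact absurd rfl hij
      · exact dcb.symm
    · rcases all j with rfl | rfl | rfl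
      · exact dac.symm
      · exact dcb
      · exact absurd rfl hij
  · intro i
    rcases all i with rfl | rfl | rfl
    · rw [Na]; exact con_insert cP h1
    · rw [Nb]; exact conn_single G _
    · rw [Nc]; exact con_insert cQ h2
  · intro i j hij
    rcases all i with rfl | rfl | rfl
    · rcases all j with rfl | rfl | rfl
      · exact absurd rfl hij
      · exact eab
      · exact eac
    · rcases all j with rfl | rfl | rfl
      · exact flip _ _ eab
      · exact absurd rfl hij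
      · exact flip _ _ ecb
    · rcases all j with rfl | rfl | rfl
      · exact flip _ _ eac
      · exact ecb
      · exact absurd rfl hij

theorem mk3 {G : SimpleGraph V} {D : Set V} {s : Fin 3 → V} (hs : Function.Injective s)
    (hDs : ∀ i, s i ∉ D) {Y : Fin 3 → Set V} (hY : ∀ i, Y i ⊆ D)
    (hd : ∀ i j, i ≠ j → Disjoint (Y i) (Y j)) (hc : ∀ i, (G.induce (Y i)).Connected)
    (ht : ∀ i, ∃ x ∈ Y i, G.Adj x (s i))
    (ha : ∀ i j, i ≠ j → ∃ x ∈ Y i, ∃ y ∈ Y j, G.Adj x y) : ∃ N, Root3 G D s N := by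
  refine ⟨fun i => insert (s i) (Y i), fun i => Or.inl rfl, ?_, ?_, fun i => con_insert (hc i) (ht i),
    ?_⟩
  · rintro i v (hv | hv)
    · exact Or.inr hv
    · exact Or.inl (hY i hv)
  · intro i j hij
    rw [Set.disjoint_left]
    rintro x (rfl | hx) (hx' | hx')
    · exact hij (hs hx')
    · exact hDs i (hY j hx')
    · exact hDs j (hx' ▸ hY i hx)
    · exact Set.disjoint_left.1 (hd i j hij) hx hx'
  · intro i j hij
    obtain ⟨x, hx, y, hy, h⟩ := ha i j hij
    exact ⟨x, Or.inr hx, y, Or.inr hy, h⟩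

/-- **the rooted triangle** -/
theorem rooted [Finite V] {G : SimpleGraph V} {X D : Set V} {s : Fin 3 → V}
    (hs : Function.Injective s) (hsX : ∀ i, s i ∈ X) (hDX : D ⊆ X) (hDs : ∀ i, s i ∉ D)
    (hcl : ∀ u ∈ D, ∀ v ∈ X, G.Adj u v → v ∈ D ∨ ∃ i, v = s i)
    (hc3 : ∀ s ∈ X, ∀ t ∈ X, ∀ C ⊆ X, C.Nonempty → s ∉ C → t ∉ C →
        (∀ u ∈ C, ∀ v ∈ X, G.Adj u v → v ∈ C ∨ v = s ∨ v = t) →
        ∀ y ∈ X, y ∉ C → y ≠ s → y ≠ t → False)
    (h2 : ¬ D.Subsingleton) : ∃ N, Root3 G D s N := by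
  classical
  -- every component of `D` sees all the `s i`
  have sees : ∀ e ∈ D, ∀ i, ∃ a ∈ H437.comp G D e, G.Adj a (s i) := by
    intro e he i
    by_contra hno
    push Not at hno
    have hE : H437.comp G D e ⊆ D := comp_sub he
    obtain ⟨j, k, hij, hik, hjk⟩ := oth i
    refine hc3 (s j) (hsX j) (s k) (hsX k) (H437.comp G D e) (fun v hv => hDX (hE hv))
      ⟨e, comp_self⟩ (fun h => hDs j (hE h)) (fun h => hDs k (hE h)) ?_ (s i) (hsX i)
      (fun h => hDs i (hE h)) (fun h => hij (hs h)) (fun h => hik (hs h))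
    intro u hu v hv huv
    rcases hcl u (hE hu) v hv huv with h | ⟨l, rfl⟩
    · exact Or.inl (comp_step hu huv h)
    · rcases three i j k hij hjk hik l with rfl | rfl | rfl
      · exact absurd huv (hno u hu)
      · exact Or.inr (Or.inl rfl)
      · exact Or.inr (Or.inr rfl)
  rw [Set.not_subsingleton_iff] at h2
  obtain ⟨e, he, f, hf, hef⟩ := h2
  by_cases hD : D ⊆ H437.comp G D e
  · -- `D` is connected
    have hDe : H437.comp G D e = D := (comp_sub he).antisymm hD
    have hDc : (G.induce D).Connected := by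
      have := H437.comp_conn (G := G) (Y := D) (c := e)
      rwa [hDe] at this
    have hB : ∀ i, ∃ a ∈ D, ∃ b ∈ ({s i} : Set V), G.Adj a b := by
      intro i
      obtain ⟨a, ha, h⟩ := sees e he i
      exact ⟨a, hDe ▸ ha, s i, rfl, h⟩
    rcases Vale.Agent.P235.K5.W.H246.trichotomy (G := G) (X := D) hDc (fun i => {s i}) hB with
      ⟨P, Q, hPQ, hd, cP, cQ, tP, tQ⟩ | ⟨Y, hY, hd, hc, ha, ht⟩ | ⟨h, hh, hhub⟩
    · have hPD : P ⊆ D := fun v hv => hPQ ▸ Or.inl hv
      have hQD : Q ⊆ D := fun v hv => hPQ ▸ Or.inr hv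
      have tch : ∀ (Z : Set V) (i : Fin 3), (∃ a ∈ Z, ∃ b ∈ ({s i} : Set V), G.Adj a b) →
          ∃ a ∈ Z, G.Adj a (s i) := by
        rintro Z i ⟨a, ha, b, rfl, h⟩
        exact ⟨a, ha, h⟩
      obtain ⟨a, b, c, hab, hbc, hac, pa, pb, qb, qc⟩ := prop_aux
        (fun i => ∃ a ∈ P, G.Adj a (s i)) (fun i => ∃ a ∈ Q, G.Adj a (s i))
        (by
          intro i
          obtain ⟨a, ha, b, rfl, h⟩ := hB i
          have : a ∈ P ∪ Q := hPQ ▸ ha
          rcases this with h' | h'
          · exact Or.inl ⟨a, h', h⟩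
          · exact Or.inr ⟨a, h', h⟩)
        (by
          obtain ⟨i, j, h1, h2, h3⟩ := tP
          exact ⟨i, j, h1, tch _ _ h2, tch _ _ h3⟩)
        (by
          obtain ⟨i, j, h1, h2, h3⟩ := tQ
          exact ⟨i, j, h1, tch _ _ h2, tch _ _ h3⟩)
      -- `P` and `Q` are adjacent
      have hadj : ∃ x ∈ P, ∃ y ∈ Q, G.Adj x y := by
        by_contra hno
        push Not at hno
        obtain ⟨⟨p, hp⟩⟩ := cP.nonempty
        obtain ⟨⟨q, hq⟩⟩ := cQ.nonempty
        have hsub : H437.comp G D p ⊆ P := by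
          refine comp_le hp ?_
          intro u hu v hv huv
          have : v ∈ P ∪ Q := hPQ ▸ hv
          rcases this with h | h
          · exact h
          · exact absurd huv (hno u hu v h)
        have hq' : q ∈ H437.comp G D p := by
          have h1 : D ⊆ H437.comp G D p := by
            intro v hv
            have hve : v ∈ H437.comp G D e := hD hv
            have hpe : p ∈ H437.comp G D e := hD (hPD hp)
            -- `e ∈ comp p`
            have key : H437.comp G D e ⊆ H437.comp G D p ∪ {v | v ∈ H437.comp G D e ∧ e ∉ H437.comp G D p} := by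
              intro w hw
              by_cases h : e ∈ H437.comp G D p
              · left
                have : H437.comp G D e ⊆ H437.comp G D p :=
                  comp_le h (fun u hu v hv huv => comp_step hu huv hv)
                exact this hw
              · exact Or.inr ⟨hw, h⟩
            by_contra hvp
            have hep : e ∉ H437.comp G D p := by
              intro h
              exact hvp ((comp_le h (fun u hu v hv huv => comp_step hu huv hv)) hve)
            have h3 : H437.comp G D e ⊆ D \ H437.comp G D p := by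
              refine comp_le ⟨he, hep⟩ ?_
              intro u hu v hv huv
              exact ⟨hv, fun h => hu.2 (comp_step h huv.symm hu.1)⟩
            exact (h3 hpe).2 comp_self
          exact h1 (hQD hq)
        exact Set.disjoint_left.1 hd (hsub hq') hq
      obtain ⟨x, hx, y, hy, hxy⟩ := hadj
      exact mk2 hs hDs hab hbc hac hPD hQD hd cP cQ pa qc pb qb
        ⟨x, Or.inr hx, y, Or.inr hy, hxy⟩
    · refine mk3 hs hDs (Y := Y) ?_ hd hc ?_ ha
      · intro i v hv
        rw [← hY]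
        exact Set.mem_iUnion.2 ⟨i, hv⟩
      · intro i
        obtain ⟨a, ha', b, hb, h⟩ := (ht i i).2 rfl
        have : b = s i := hb
        exact ⟨a, ha', this ▸ h⟩
    · exfalso
      -- the hub: a component of `D - h`
      obtain ⟨d, hd, hdh⟩ : ∃ d ∈ D, d ≠ h := by
        by_cases heh : e = h
        · exact ⟨f, hf, fun hfh => hef (heh.trans hfh.symm)⟩
        · exact ⟨e, he, heh⟩
      set Z : Set V := D \ {h} with hZ
      have hdZ : d ∈ Z := ⟨hd, hdh⟩
      have hCZ : H437.comp G Z d ⊆ Z := comp_sub hdZ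
      have hhub' := hhub (H437.comp G Z d) (fun v hv => (hCZ hv).1) (fun hh' => (hCZ hh').2 rfl)
        comp_conn
      obtain ⟨i, hi⟩ : ∃ i : Fin 3, ∀ j, (∃ a ∈ H437.comp G Z d, G.Adj a (s j)) → j = i := by
        by_cases hex : ∃ i : Fin 3, ∃ a ∈ H437.comp G Z d, G.Adj a (s i)
        · obtain ⟨i, a, ha, hai⟩ := hex
          refine ⟨i, ?_⟩
          rintro j ⟨b, hb, hbj⟩
          exact hhub' j i ⟨b, hb, s j, rfl, hbj⟩ ⟨a, ha, s i, rfl, hai⟩
        · exact ⟨0, fun j hj => absurd ⟨j, hj⟩ hex⟩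
      obtain ⟨j, k, hj, -, -⟩ := oth i
      replace hj : j ≠ i := hj.symm
      refine hc3 h (hDX hh) (s i) (hsX i) (H437.comp G Z d) (fun v hv => hDX (hCZ hv).1)
        ⟨d, comp_self⟩ (fun hh' => (hCZ hh').2 rfl) (fun hh' => hDs i (hCZ hh').1) ?_ (s j) (hsX j)
        (fun hh' => hDs j (hCZ hh').1) (fun hh' => hDs j (hh' ▸ hh)) (fun hh' => hj (hs hh'))
      intro u hu v hv huv
      rcases hcl u (hCZ hu).1 v hv huv with h' | ⟨l, rfl⟩
      · by_cases hvh : v = h
        · exact Or.inr (Or.inl hvh)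
        · exact Or.inl (comp_step hu huv ⟨h', hvh⟩)
      · right; right
        rw [hi l ⟨u, hu, huv⟩]
  · -- two components
    rw [Set.not_subset] at hD
    obtain ⟨g, hg, hge⟩ := hD
    have hE : H437.comp G D e ⊆ D := comp_sub he
    have hF : H437.comp G D g ⊆ D := comp_sub hg
    have hFE : H437.comp G D g ⊆ D \ H437.comp G D e := by
      refine comp_le ⟨hg, hge⟩ ?_
      intro u hu v hv huv
      exact ⟨hv, fun h => hu.2 (comp_step h huv.symm hu.1)⟩
    obtain ⟨x, hx, hxs⟩ := sees e he 1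
    exact mk2 (a := 0) (b := 2) (c := 1) hs hDs (by decide) (by decide) (by decide) hE hF
      (by
        rw [Set.disjoint_left]
        intro x hx hx'
        exact (hFE hx').2 hx)
      comp_conn comp_conn (sees e he 0) (sees g hg 1) (sees e he 2) (sees g hg 2)
      ⟨x, Or.inr hx, s 1, Or.inl rfl, hxs⟩

/-- contracting the rooted triangle on the other side -/
theorem k3_map [Finite V] {U : Type} {A : SimpleGraph U} {G : SimpleGraph V} {X C D : Set V}
    {s : Fin 3 → V} (hs : Function.Injective s) (hsX : ∀ i, s i ∈ X) (hCX : C ⊆ X) (hDX : D ⊆ X)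
    (hCs : ∀ i, s i ∉ C) (hCD : ∀ v ∈ C, v ∉ D) {N : Fin 3 → Set V} (hN : Root3 G D s N)
    (h : IsMinor A ((G ⊔ cl (Set.range s)).induce (C ∪ Set.range s))) :
    IsMinor A (G.induce X) := by
  classical
  obtain ⟨n1, n2, n3, n4, n5⟩ := hN
  let ν : V → Set V := fun v => {x | (v ∉ Set.range s ∧ x = v) ∨ ∃ i, s i = v ∧ x ∈ N i}
  have νs : ∀ i, ν (s i) = N i := by
    intro i
    ext x
    constructor
    · rintro (⟨h1, _⟩ | ⟨j, hj, hx⟩)
      · exact absurd ⟨i, rfl⟩ h1
      · rw [← hs hj]; exact hx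
    · intro hx
      exact Or.inr ⟨i, rfl, hx⟩
  have ν1 : ∀ v, v ∉ Set.range s → ν v = {v} := by
    intro v hv
    ext x
    constructor
    · rintro (⟨_, h1⟩ | ⟨j, hj, _⟩)
      · exact h1
      · exact absurd ⟨j, hj⟩ hv
    · intro hx
      exact Or.inl ⟨hv, hx⟩
  have νv : ∀ v, v ∈ ν v := by
    intro v
    by_cases hv : v ∈ Set.range s
    · obtain ⟨i, rfl⟩ := hv
      rw [νs]; exact n1 i
    · rw [ν1 v hv]; rfl
  refine minor_map ν ?_ ?_ ?_ ?_ h
  · intro v hv
    by_cases hvs : v ∈ Set.range s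
    · obtain ⟨i, rfl⟩ := hvs
      rw [νs]
      intro x hx
      rcases n2 i x hx with h | h
      · exact hDX h
      · rw [h]; exact hsX i
    · rw [ν1 v hvs]
      rintro x rfl
      exact hCX (hv.resolve_right hvs)
  · intro v hv
    by_cases hvs : v ∈ Set.range s
    · obtain ⟨i, rfl⟩ := hvs
      rw [νs]; exact n4 i
    · rw [ν1 v hvs]; exact conn_single G v
  · intro u hu v hv huv
    by_cases hus : u ∈ Set.range s
    · obtain ⟨i, rfl⟩ := hus
      by_cases hvs : v ∈ Set.range s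
      · obtain ⟨j, rfl⟩ := hvs
        rw [νs, νs]
        exact n3 i j (fun h => huv (by rw [h]))
      · rw [νs, ν1 v hvs, Set.disjoint_left]
        rintro x hx rfl
        rcases n2 i x hx with h | h
        · exact hCD x (hv.resolve_right hvs) h
        · exact hvs ⟨i, h.symm⟩
    · by_cases hvs : v ∈ Set.range s
      · obtain ⟨j, rfl⟩ := hvs
        rw [νs, ν1 u hus, Set.disjoint_left]
        rintro x rfl hx
        rcases n2 j x hx with h | h
        · exact hCD x (hu.resolve_right hus) h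
        · exact hus ⟨j, h.symm⟩
      · rw [ν1 u hus, ν1 v hvs, Set.disjoint_left]
        rintro x rfl hx
        exact huv hx
  · intro u hu v hv huv
    rcases huv with huv | ⟨hne, ⟨i, rfl⟩, ⟨j, rfl⟩⟩
    · exact ⟨u, νv u, v, νv v, huv⟩
    · rw [νs, νs]
      exact n5 i j (fun h => hne (by rw [h]))

end Vale.Agent.P235.K5.H355
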